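import Crest.Agent.X262.Fano.Rho
import Crest.Agent.X262.St91.Defs

/-!
# Row 262, G4 / START (helper28): the Picard group of the Plücker quadric

* `rho_of_ufd` : a model with factorial charts and a prime hyperplane section has `Pic = ℤ H`;
* `hyp_rel`    : the relations of a chart of a hypersurface;
* `picStmt : St91.PicStmt`.
-/

set_option autoImplicit false

noncomputable section

namespace Crest.Agent.X262.Pic28

open Crest.Agent.X277 Crest.Agent.X277.Lef Crest.Agent.X277.AN.G1 Crest.Agent.X277.BD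
open Crest.Agent.X277.BD.Br MvPolynomial Crest.Agent.X262.Fano

variable {F : Type} [Field F] [Algebra ℂ F] {P : PModel ℂ F} {a : BD ℂ F} {i : Fin (P.N + 1)}

/-- a Cartier divisor is principal on a factorial chart -/
theorem exists_gen_chart [UniqueFactorizationMonoid (P.A i)] (ha : a ∈ On P) :
    ∃ g : F, ∀ x ∈ pat P i, At a x g := by
  classical
  suffices h : ∀ a ∈ On P, Free a → ∃ g : F, ∀ x ∈ pat P i, At a x g by
    obtain ⟨c, hc, N, h1, rfl⟩ := exists_sub_On ha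
    obtain ⟨g, hg⟩ := h c hc h1
    exact ⟨_, fun x hx => (hg x hx).sub ((at_y hx).nsmul N)⟩
  intro a ha hf
  obtain ⟨r, s, h0, h1, rfl⟩ := exists_gn ha hf
  choose e he c hc hc0 h2 using fun j => P.frac' i (s j)
  have hq : ∏ j, c j ≠ 0 := Finset.prod_ne_zero_iff.2 fun j _ => hc0 j
  have h3 : ∀ j, s j * ∏ j, c j ∈ P.A i := fun j => by
    rw [← Finset.mul_prod_erase _ c (Finset.mem_univ j), ← mul_assoc, h2 j,
      div_mul_cancel₀ _ (hc0 j)]
    exact mul_mem (he j) (prod_mem fun l _ => hc l)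
  have hp0 : ∀ j, (⟨_, h3 j⟩ : P.A i) ≠ 0 := fun j h =>
    mul_ne_zero (h0 j) hq (congrArg Subtype.val h)
  obtain ⟨g, q, h4, h5⟩ := exists_red 0 (fun j => (⟨_, h3 j⟩ : P.A i)) (hp0 0)
  have hg : (g : F) ≠ 0 := fun h => hp0 0 (by rw [h4, show g = 0 from Subtype.ext h, zero_mul])
  have h6 : ∀ j, s j = q j * (g / ∏ j, c j) := fun j => by
    rw [← mul_div_assoc, mul_comm, eq_div_iff hq]
    exact congrArg Subtype.val (h4 j)
  refine ⟨g / ∏ j, c j, fun x hx => ?_⟩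
  obtain ⟨j, hj, h7⟩ := h1 x
  refine (at_mxf hj h7).of_ev ?_
  rw [h6 j, mul_div_cancel_right₀ _ (div_ne_zero hg hq), ev_chr hx]
  intro h8
  have hq0 : q j ≠ 0 := fun h => hp0 j (by rw [h4, h, mul_zero])
  obtain ⟨π, hπ, h9, h10⟩ := exists_prime_ker (chr i x hx : P.A i →+* ℂ) hq0 h8
  obtain ⟨l, hl⟩ := h5 π hπ
  obtain ⟨u, hu, v, hv, h11, h12⟩ := (mem_lp_iff hx).1 (h7 l)
  lift u to P.A i using hu
  lift v to P.A i using hv
  have h13 : q l * v = u * q j := Subtype.ext (by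
    have h14 : (q j : F) ≠ 0 := fun h => hq0 (Subtype.ext h)
    rw [Subalgebra.coe_mul, Subalgebra.coe_mul, ← h12, h6 l, h6 j,
      mul_div_mul_right _ _ (div_ne_zero hg hq)]
    field_simp)
  rcases hπ.dvd_or_dvd (h13 ▸ h9.mul_left u : π ∣ q l * v) with h | ⟨t, rfl⟩
  · exact hl h
  · exact h11 (by rw [ev_chr hx, map_mul, show chr i x hx π = 0 from h10, zero_mul])

/-- a divisor which is trivial on the chart `0` is a multiple of the hyperplane section -/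
theorem exists_exp [UniqueFactorizationMonoid (P.A i)] (hp : Prime (gen P i 0)) (ha : a ∈ On P)
    (h0 : ∀ x ∈ pat P 0, At a x 1) : ∃ e : ℤ, ∀ x ∈ pat P i, At a x ((P.y 0 / P.y i) ^ e) := by
  obtain ⟨g, hg⟩ := exists_gen_chart (i := i) ha
  have hc0 : P.y 0 / P.y i ≠ 0 := div_ne_zero (P.y_ne _) (P.y_ne _)
  have h1 : ∀ V : RZ ℂ F, (∀ y ∈ P.A i, y ∈ V.1) → (P.y 0 / P.y i)⁻¹ ∈ V.1 → V.v g = 1 := by
    intro V hV hi
    obtain ⟨x, hx, h2⟩ := Cns.exists_ov_of_le hV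
    obtain ⟨x', hx', h3⟩ := Cns.exists_ov_of_le (P := P) (i := 0) (V := V.1)
      (V.2.adjoin_le (by
        rintro _ ⟨j, rfl⟩
        have h4 := mul_mem (hV _ (div_mem_chart P.y i j)) hi
        rwa [inv_div, div_mul_div_cancel₀ (P.y_ne _)] at h4))
    rw [hg x hx V h2, ← h0 x' hx' V h3, map_one]
  have h2 : ∀ f : F, (∀ V : RZ ℂ F, (∀ y ∈ P.A i, y ∈ V.1) →
      (P.y 0 / P.y i)⁻¹ ∈ V.1 → V.v f ≤ 1) →
      ∃ (N : ℕ) (p : P.A i), (p : F) = (P.y 0 / P.y i) ^ N * f := by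
    intro f hf
    obtain ⟨N, hN⟩ := exists_pow_mem (k := ℂ) (S := P.A i) (f := f)
      (div_mem_chart P.y i 0) fun V hV hi => RZ.le_one_iff.1 (hf V hV hi)
    exact ⟨N, ⟨_, mem_A_iff.2 fun x hx => mem_lp_iff'.2 fun V hV =>
      RZ.le_one_iff.2 (hN V fun y hy => hV y (A_le hx hy))⟩, rfl⟩
  obtain ⟨N, p, hp'⟩ := h2 g fun V hV hi => (h1 V hV hi).le
  obtain ⟨M, q, hq⟩ := h2 g⁻¹ fun V hV hi => by rw [map_inv₀, h1 V hV hi, inv_one]
  obtain ⟨x0, hx0, -⟩ := exists_ev_ne (P := P) (i := i) (one_mem _) one_ne_zero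
  have hg0 := (hg x0 hx0).ne
  have h3 : gen P i 0 ^ (N + M) = p * q := Subtype.ext (by
    change (P.y 0 / P.y i) ^ (N + M) = (p : F) * q
    rw [hp', hq, pow_add]
    field_simp)
  obtain ⟨k, -, u, hu⟩ := (dvd_prime_pow hp _).1 ⟨q, h3⟩
  refine ⟨(k : ℤ) - N, fun x hx => ?_⟩
  have h4 : (p : F) * (u : P.A i) = (P.y 0 / P.y i) ^ k := congrArg Subtype.val hu
  have h5 := (hg x hx).mul_unit (f := ((u : P.A i) : F)) (by
    rw [ev_chr hx]
    exact (u.isUnit.map _).ne_zero)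
  convert h5 using 1
  rw [zpow_sub₀ hc0, zpow_natCast, zpow_natCast, ← h4, hp']
  field_simp

/-- **factorial charts and a prime hyperplane section** -/
theorem rho_of_ufd (hU : ∀ i, UniqueFactorizationMonoid (P.A i))
    (hp : ∀ l : Fin P.N, Prime (gen P l.succ 0)) {x0 : Pts P} (h1 : ∀ l : Fin P.N, x0 ∈ pat P l.succ)
    (h2 : x0 ∉ pat P 0) (ha : a ∈ On P) : ∃ c : ℤ, Lin a (c • oP P) := by
  obtain ⟨g, hg⟩ := exists_gen_chart (i := 0) ha
  obtain ⟨x1, hx1, -⟩ := exists_ev_ne (P := P) (i := 0) (one_mem _) one_ne_zero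
  have hg0 := (hg x1 hx1).ne
  have h0 : ∀ x ∈ pat P 0, At (a - pr ℂ g) x 1 := fun x hx => by
    simpa only [div_self hg0] using (hg x hx).sub (at_pr x hg0)
  choose e he using fun l => exists_exp (hp l) (sub_mem ha (pr_mem g)) h0
  have h3 : ∀ l l', e l = e l' := by
    intro l l'
    obtain ⟨V, hV, hd⟩ := Br.exists_dom x0
    have h5 := (he l x0 (h1 l) V hV).trans (he l' x0 (h1 l') V hV).symm
    rw [map_zpow₀, map_zpow₀, map_div₀ V.v _ (P.y l'.succ),
      v_eq_of_ev ((mem_pat_iff (h1 l)).1 (h1 l')) hV, ← map_div₀] at h5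
    refine (zpow_right_inj₀ (RZ.pos (div_ne_zero (P.y_ne _) (P.y_ne _))) fun h => ?_).1 h5
    exact h2 ((mem_pat_iff (h1 l)).2 ((hd _ (y_mem (h1 l) 0)).1 h))
  obtain ⟨c, hc⟩ : ∃ c : ℤ, ∀ l, e l = c := by
    by_cases h : Nonempty (Fin P.N)
    · exact ⟨e h.some, fun l => h3 _ _⟩
    · exact ⟨0, fun l => absurd ⟨l⟩ h⟩
  have h4 : g * P.y 0 ^ c ≠ 0 := mul_ne_zero hg0 (zpow_ne_zero _ (P.y_ne 0))
  refine ⟨-c, _, h4, ext_at (P := P) fun x => ?_⟩
  obtain ⟨i, hi⟩ := exists_pat x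
  refine ⟨_, ?_, ((at_y hi).zsmul (-c)).add (at_pr x h4)⟩
  have h5 : At (a - pr ℂ g) x ((P.y 0 / P.y i) ^ c) := by
    revert hi
    refine Fin.cases (fun hi => ?_) (fun l hi => hc l ▸ he l x hi) i
    rw [div_self (P.y_ne 0), one_zpow]
    exact h0 x hi
  have h6 := h5.add (at_pr x hg0)
  rw [sub_add_cancel] at h6
  convert h6 using 1
  rw [div_zpow, zpow_neg]
  field_simp

/-- the relations between the coordinates of a chart of a hypersurface -/
theorem hyp_rel {N : ℕ} {G : MvPolynomial (Fin (N + 1)) ℂ} (Y : Top.Hyp N G F) {B : Type}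
    [CommRing B] [Algebra ℂ B] {w : Fin (N + 1) → B} {i : Fin (N + 1)} (h1 : w i = 1)
    (h2 : aeval w G = 0) {q : MvPolynomial (Fin (N + 1)) ℂ}
    (hq : aeval (fun j => Y.y j / Y.y i) q = 0) : aeval w q = 0 := by
  let q' : MvPolynomial (Fin (N + 1)) ℂ := ∑ d ∈ Finset.range (q.totalDegree + 1),
    X i ^ (q.totalDegree - d) * homogeneousComponent d q
  have h3 : q'.IsHomogeneous q.totalDegree := IsHomogeneous.sum _ _ _ fun d hd => by
    have h := ((isHomogeneous_X ℂ i).pow (q.totalDegree - d)).mul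
      (homogeneousComponent_isHomogeneous d q)
    rwa [one_mul, Nat.sub_add_cancel (Nat.lt_succ_iff.1 (Finset.mem_range.1 hd))] at h
  have h4 : ∀ {B : Type} [CommRing B] [Algebra ℂ B] {w : Fin (N + 1) → B}, w i = 1 →
      aeval w q' = aeval w q := fun h => by
    conv_rhs => rw [← sum_homogeneousComponent q]
    simp only [q', map_sum, map_mul, map_pow, aeval_X, h, one_pow, one_mul]
  have h5 : aeval Y.y q' = 0 := by
    have h6 := aeval_mul_hom h3 (Y.y i) fun j => Y.y j / Y.y i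
    simp only [mul_div_cancel₀ _ (Y.y_ne i)] at h6
    rw [h6, h4 (div_self (Y.y_ne i)), hq, mul_zero]
  obtain ⟨r, hr⟩ := (Y.ker _ _ h3).1 h5
  rw [← h4 h1, hr, map_mul, h2, zero_mul]

/-- the free coordinates of the charts -/
def σ : Fin 6 → Fin 4 → Fin 6 :=
  ![![1, 2, 3, 4], ![0, 2, 3, 5], ![0, 1, 4, 5], ![0, 1, 4, 5], ![0, 2, 3, 5], ![1, 2, 3, 4]]

/-- the parametrisations of the charts -/
def w : Fin 6 → Fin 6 → MvPolynomial (Fin 4) ℂ :=
  ![![1, X 0, X 1, X 2, X 3, X 0 * X 3 - X 1 * X 2], ![X 0, 1, X 1, X 2, X 0 * X 3 + X 1 * X 2, X 3],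
    ![X 0, X 1, 1, X 1 * X 2 - X 0 * X 3, X 2, X 3], ![X 0, X 1, X 1 * X 2 - X 0 * X 3, 1, X 2, X 3],
    ![X 0, X 0 * X 3 + X 1 * X 2, X 1, X 2, 1, X 3], ![X 0 * X 3 - X 1 * X 2, X 0, X 1, X 2, X 3, 1]]

theorem w_self (i : Fin 6) : w i i = 1 := by fin_cases i <;> rfl

theorem w_σ (i : Fin 6) (l : Fin 4) : w i (σ i l) = X l := by fin_cases i <;> fin_cases l <;> rfl

theorem w_plq (i : Fin 6) : aeval (w i) St91.plq = 0 := by
  fin_cases i <;> simp [St91.plq, w]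

theorem prime_w (l : Fin 5) : Prime (w l.succ 0) := by
  have h : Prime (X 0 * X 3 - X 1 * X 2 : MvPolynomial (Fin 4) ℂ) := by
    rw [sub_eq_add_neg]
    refine (irreducible_mul_X_add _ _ 3 (X_ne_zero _) (by simp) (fun h => ?_)
      (X_prime.irreducible.isRelPrime_iff_not_dvd.2 fun ⟨c, hc⟩ => ?_)).prime
    · rw [vars_neg] at h
      simpa using vars_mul (R := ℂ) _ _ h
    · simpa using congrArg (eval ![0, 1, 1, 0]) hc
  fin_cases l
  exacts [X_prime, X_prime, X_prime, X_prime, h]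

theorem aeval_w (Y : Top.Hyp 5 St91.plq F) (i j : Fin 6) :
    aeval (fun l => Y.y (σ i l) / Y.y i) (w i j) = Y.y j / Y.y i := by
  have h := (Y.ker 2 _ ((((isHomogeneous_X ℂ 0).mul (isHomogeneous_X ℂ 5)).sub
    ((isHomogeneous_X ℂ 1).mul (isHomogeneous_X ℂ 4))).add
    ((isHomogeneous_X ℂ 2).mul (isHomogeneous_X ℂ 3)))).2 dvd_rfl
  simp only [map_add, map_sub, map_mul, aeval_X] at h
  have h0 := Y.y_ne i
  fin_cases i <;> fin_cases j <;> simp [w, σ] at h0 ⊢ <;> field_simp <;>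
    first | linear_combination h | linear_combination -h

/-- the charts are affine spaces -/
theorem exists_equiv (Y : Top.Hyp 5 St91.plq F) (i : Fin 6) :
    ∃ e : MvPolynomial (Fin 4) ℂ ≃ₐ[ℂ] Y.P.A i, ∀ j, e (w i j) = gen Y.P i j := by
  have h1 : Function.Injective (aeval (R := ℂ) fun l => Y.y (σ i l) / Y.y i) :=
    (injective_iff_map_eq_zero _).2 fun p hp => by
      have h := hyp_rel Y (w_self i) (w_plq i) (q := rename (σ i) p) (by rwa [aeval_rename])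
      rwa [aeval_rename, show w i ∘ σ i = X from funext (w_σ i), aeval_X_left_apply] at h
  have h2 : (aeval fun l => Y.y (σ i l) / Y.y i).range = Y.P.A i := by
    refine le_antisymm ?_ (Algebra.adjoin_le ?_)
    · rw [← Algebra.adjoin_range_eq_range_aeval, Algebra.adjoin_le_iff]
      rintro _ ⟨l, rfl⟩
      exact div_mem_chart Y.y i _
    · rintro _ ⟨j, rfl⟩
      exact ⟨w i j, aeval_w Y i j⟩
  exact ⟨(AlgEquiv.ofInjective _ h1).trans (Subalgebra.equivOfEq _ _ h2),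
    fun j => Subtype.ext (aeval_w Y i j)⟩

/-- **the Picard group of `G(2,4)`** -/
theorem picStmt : St91.PicStmt := by
  intro E _ _ Y a ha
  choose e he using exists_equiv Y
  obtain ⟨x, hx, h⟩ := exists_pt (P := Y.P) (1 : Fin 6) ((aeval ![0, 1, 1, 1]).comp
    ((e 1).symm : Y.P.A (1 : Fin 6) →ₐ[ℂ] _))
  have h1 : ∀ j : Fin 6, x ∈ pat Y.P j ↔ aeval ![0, 1, 1, 1] (w 1 j) ≠ (0 : ℂ) := fun j => by
    rw [mem_pat_iff hx]
    refine Iff.of_eq (congrArg (· ≠ 0) ((h (gen Y.P (1 : Fin 6) j)).trans ?_))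
    rw [← he]
    simp
  refine rho_of_ufd (x0 := x) (fun i => (e i).toMulEquiv.uniqueFactorizationMonoid inferInstance)
    (fun l => he _ _ ▸ (MulEquiv.prime_iff (e l.succ)).2 (prime_w l)) (fun l => (h1 _).2 ?_)
    (fun h2 => (h1 0).1 h2 (by simp [w])) ha
  fin_cases l <;> simp [w]

end Crest.Agent.X262.Pic28
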